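import Mathlib

namespace Vale.Agent.P226

open MeasureTheory Set Filter ProbabilityTheory

noncomputable def c0 : ℝ := (√(2 * Real.pi))⁻¹

/-- the Gaussian density -/
noncomputable def phi (y : ℝ) : ℝ := c0 * Real.exp (-y ^ 2 / 2)

noncomputable def Psi (s : ℝ) : ℝ := ∫ y in (0 : ℝ)..s, phi y

lemma c0_pos : 0 < c0 := by
  unfold c0
  have := Real.pi_pos
  positivity

lemma c0_sq : c0 ^ 2 = 1 / (2 * Real.pi) := by
  unfold c0
  rw [inv_pow, Real.sq_sqrt (by have := Real.pi_pos; positivity), one_div]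

lemma c0_le : c0 ≤ 0.399 := by
  have h1 := c0_sq
  have h2 := Real.pi_gt_d4
  have h3 : 1 / (2 * Real.pi) ≤ 0.399 ^ 2 := by
    rw [div_le_iff₀ (by positivity)]
    nlinarith
  rw [← h1] at h3
  exact abs_le_of_sq_le_sq' h3 (by norm_num) |>.2

lemma c0_ge : 0.3989 ≤ c0 := by
  have h1 := c0_sq
  have h2 := Real.pi_lt_d4
  have h3 : (0.3989 : ℝ) ^ 2 ≤ 1 / (2 * Real.pi) := by
    rw [le_div_iff₀ (by have := Real.pi_pos; positivity)]
    nlinarith
  rw [← h1] at h3
  exact abs_le_of_sq_le_sq' h3 c0_pos.le |>.2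

lemma phi_pos (y : ℝ) : 0 < phi y := mul_pos c0_pos (Real.exp_pos _)

lemma phi_eq (y : ℝ) : gaussianPDFReal 0 1 y = phi y := by
  unfold gaussianPDFReal phi c0
  simp

lemma phi_cont : Continuous phi := by
  unfold phi
  fun_prop

lemma phi_hasDerivAt (y : ℝ) : HasDerivAt phi (-y * phi y) y := by
  have h1 : HasDerivAt (fun y : ℝ => -y ^ 2 / 2) (-y) y := by
    have := ((hasDerivAt_pow 2 y).neg).div_const 2
    refine this.congr_deriv ?_
    push_cast
    ring
  have h2 := h1.exp.const_mul c0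
  refine h2.congr_deriv ?_
  unfold phi
  ring

lemma Psi_hasDerivAt (y : ℝ) : HasDerivAt Psi (phi y) y :=
  (phi_cont.integral_hasStrictDerivAt 0 y).hasDerivAt

lemma Psi_zero : Psi 0 = 0 := by simp [Psi]

lemma phi_integral : ∫ y in Ioi (0 : ℝ), phi y = 1 / 2 := by
  have h := integral_gaussian_Ioi (1 / 2)
  unfold phi
  rw [integral_const_mul]
  have h2 : ∀ y : ℝ, -y ^ 2 / 2 = -(1 / 2) * y ^ 2 := fun y => by ring
  simp only [h2]
  rw [h]
  have h3 : Real.pi / (1 / 2) = 2 * Real.pi := by ring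
  rw [h3]
  unfold c0
  have h4 : √(2 * Real.pi) ≠ 0 := by
    have := Real.pi_pos
    positivity
  field_simp

lemma phi_integrable : Integrable phi := by
  unfold phi
  have h := (integrable_exp_neg_mul_sq (b := 1 / 2) (by norm_num)).const_mul c0
  convert h using 2
  ring_nf

lemma Psi_tendsto : Tendsto Psi atTop (nhds (1 / 2)) := by
  rw [← phi_integral]
  exact intervalIntegral_tendsto_integral_Ioi 0 phi_integrable.integrableOn tendsto_id

lemma yphi_tendsto : Tendsto (fun y => y * phi y) atTop (nhds 0) := by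
  have h1 : Tendsto (fun y : ℝ => c0 * (2 * ((y / 2) ^ 1 * Real.exp (-(y / 2))))) atTop (nhds 0) := by
    have h2 := (Real.tendsto_pow_mul_exp_neg_atTop_nhds_zero 1).comp
      (tendsto_id.atTop_div_const (by norm_num : (0 : ℝ) < 2))
    have h3 := (h2.const_mul 2).const_mul c0
    simpa using h3
  refine tendsto_of_tendsto_of_tendsto_of_le_of_le' tendsto_const_nhds h1 ?_ ?_
  · filter_upwards [eventually_ge_atTop 0] with y hy
    exact mul_nonneg hy (phi_pos y).le
  · filter_upwards [eventually_ge_atTop 1] with y hy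
    have h2 : Real.exp (-y ^ 2 / 2) ≤ Real.exp (-(y / 2)) := by
      apply Real.exp_le_exp.2
      nlinarith
    have h3 := c0_pos
    unfold phi
    have h4 : y * (c0 * Real.exp (-y ^ 2 / 2)) ≤ y * (c0 * Real.exp (-(y / 2))) := by gcongr
    refine h4.trans (le_of_eq ?_)
    ring

lemma phi_tendsto : Tendsto phi atTop (nhds 0) := by
  refine tendsto_of_tendsto_of_tendsto_of_le_of_le' tendsto_const_nhds yphi_tendsto ?_ ?_
  · exact Eventually.of_forall fun y => (phi_pos y).le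
  · filter_upwards [eventually_ge_atTop 1] with y hy
    have := phi_pos y
    nlinarith

/-- `∫ (y - s)₊` -/
noncomputable def N (s : ℝ) : ℝ := ∫ y, max (y - s) 0 ∂(gaussianReal 0 1)

lemma N_eq (s : ℝ) : N s = phi s + s * Psi s - s / 2 := by
  unfold N
  rw [integral_gaussianReal_eq_integral_smul (by norm_num)]
  simp only [phi_eq, smul_eq_mul]
  have h1 : ∫ y, phi y * max (y - s) 0 = ∫ y in Ioi s, phi y * max (y - s) 0 := by
    symm
    apply setIntegral_eq_integral_of_forall_compl_eq_zero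
    intro y hy
    rw [max_eq_right, mul_zero]
    have : y ≤ s := not_lt.1 (show ¬ s < y from hy)
    linarith
  have h2 : ∫ y in Ioi s, phi y * max (y - s) 0 = ∫ y in Ioi s, (y - s) * phi y := by
    apply setIntegral_congr_fun measurableSet_Ioi
    intro y hy
    have : s < y := hy
    simp only
    rw [max_eq_left (by linarith), mul_comm]
  rw [h1, h2]
  have hd : ∀ y ∈ Ici s, HasDerivAt (fun y => -phi y - s * Psi y) ((y - s) * phi y) y := by
    intro y _
    refine ((phi_hasDerivAt y).neg.sub ((Psi_hasDerivAt y).const_mul s)).congr_deriv ?_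
    ring
  have ht : Tendsto (fun y => -phi y - s * Psi y) atTop (nhds (-0 - s * (1 / 2))) :=
    phi_tendsto.neg.sub (Psi_tendsto.const_mul s)
  rw [integral_Ioi_of_hasDerivAt_of_nonneg' hd (fun y hy => by
    have : s < y := hy
    exact mul_nonneg (by linarith) (phi_pos y).le) ht]
  ring

lemma sq_tail : ∫ y in Ioi (1 : ℝ), y ^ 2 * phi y = phi 1 + 1 / 2 - Psi 1 := by
  have hd : ∀ y ∈ Ici (1 : ℝ), HasDerivAt (fun y => Psi y - y * phi y) (y ^ 2 * phi y) y := by
    intro y _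
    refine ((Psi_hasDerivAt y).sub ((hasDerivAt_id' y).mul (phi_hasDerivAt y))).congr_deriv ?_
    ring
  have ht : Tendsto (fun y => Psi y - y * phi y) atTop (nhds (1 / 2 - 0)) :=
    Psi_tendsto.sub yphi_tendsto
  rw [integral_Ioi_of_hasDerivAt_of_nonneg' hd (fun y _ =>
    mul_nonneg (sq_nonneg _) (phi_pos y).le) ht]
  ring

lemma exp_upper {x : ℝ} (hx : 0 ≤ x) : Real.exp (-x) ≤ 1 - x + x ^ 2 / 2 := by
  have h1 := Real.quadratic_le_exp_of_nonneg hx
  rw [Real.exp_neg, inv_le_comm₀ (Real.exp_pos _) (by nlinarith [sq_nonneg (x - 1)])]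
  refine le_trans ?_ h1
  rw [inv_le_iff_one_le_mul₀ (by nlinarith [sq_nonneg (x - 1)])]
  nlinarith [sq_nonneg (x ^ 2)]

lemma phi_upper (y : ℝ) : phi y ≤ c0 * (1 - y ^ 2 / 2 + y ^ 4 / 8) := by
  unfold phi
  have h := exp_upper (x := y ^ 2 / 2) (by positivity)
  have h2 : -y ^ 2 / 2 = -(y ^ 2 / 2) := by ring
  rw [h2]
  refine (mul_le_mul_of_nonneg_left h c0_pos.le).trans (le_of_eq ?_)
  ring

lemma phi_lower (y : ℝ) : c0 * (1 - y ^ 2 / 2) ≤ phi y := by
  unfold phi
  apply mul_le_mul_of_nonneg_left _ c0_pos.le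
  have := Real.add_one_le_exp (-y ^ 2 / 2)
  linarith

lemma mono_of_deriv {f f' : ℝ → ℝ} (hf : ∀ y, HasDerivAt f (f' y) y) (h0 : ∀ y, 0 ≤ y → 0 ≤ f' y)
    {s : ℝ} (hs : 0 ≤ s) : f 0 ≤ f s := by
  have : MonotoneOn f (Ici 0) := by
    apply monotoneOn_of_deriv_nonneg (convex_Ici 0)
    · exact fun y _ => (hf y).continuousAt.continuousWithinAt
    · exact fun y _ => (hf y).differentiableAt.differentiableWithinAt
    · intro y hy
      rw [interior_Ici] at hy
      rw [(hf y).deriv]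
      exact h0 y (le_of_lt hy)
  exact this (mem_Ici.2 le_rfl) (mem_Ici.2 hs) hs

lemma poly_deriv (a b c : ℝ) (p q r : ℕ) (y : ℝ) :
    HasDerivAt (fun y : ℝ => a * y ^ p + b * y ^ q + c * y ^ r)
      (a * (p * y ^ (p - 1)) + b * (q * y ^ (q - 1)) + c * (r * y ^ (r - 1))) y :=
  (((hasDerivAt_pow p y).const_mul a).add ((hasDerivAt_pow q y).const_mul b)).add
    ((hasDerivAt_pow r y).const_mul c)

lemma Psi_upper {s : ℝ} (hs : 0 ≤ s) : Psi s ≤ c0 * (s - s ^ 3 / 6 + s ^ 5 / 40) := by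
  have h := mono_of_deriv (f := fun y => (c0 * y ^ 1 + (-c0 / 6) * y ^ 3 + c0 / 40 * y ^ 5) - Psi y)
    (fun y => (poly_deriv c0 (-c0 / 6) (c0 / 40) 1 3 5 y).sub (Psi_hasDerivAt y)) (by
      intro y _
      have := phi_upper y
      simp
      nlinarith) hs
  simp [Psi_zero] at h
  nlinarith

lemma Psi_lower {s : ℝ} (hs : 0 ≤ s) : c0 * (s - s ^ 3 / 6) ≤ Psi s := by
  have h := mono_of_deriv (f := fun y => Psi y - (c0 * y ^ 1 + (-c0 / 6) * y ^ 3 + 0 * y ^ 5))
    (fun y => (Psi_hasDerivAt y).sub (poly_deriv c0 (-c0 / 6) 0 1 3 5 y)) (by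
      intro y _
      have := phi_lower y
      simp
      nlinarith) hs
  simp [Psi_zero] at h
  nlinarith

lemma N_upper {s : ℝ} (hs : 0 ≤ s) :
    N s ≤ c0 * (1 + s ^ 2 / 2 - s ^ 4 / 24 + s ^ 6 / 240) - s / 2 := by
  rw [N_eq]
  have h := mono_of_deriv (f := fun y => (c0 / 2 * y ^ 2 + (-c0 / 24) * y ^ 4 + c0 / 240 * y ^ 6)
      - (phi y + y * Psi y))
    (fun y => (poly_deriv (c0 / 2) (-c0 / 24) (c0 / 240) 2 4 6 y).sub
      ((phi_hasDerivAt y).add ((hasDerivAt_id' y).mul (Psi_hasDerivAt y)))) (by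
      intro y hy
      have := Psi_upper hy
      simp
      nlinarith) hs
  have h0 : phi 0 = c0 := by simp [phi]
  simp [h0] at h
  nlinarith

end Vale.Agent.P226
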